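import Mathlib

/-! P061: thin spanning trees in dense bounded-multiplicity `k`-edge-connected multigraphs. -/

namespace Vale.P061

open Finset
open scoped Classical

variable {V : Type*} [Fintype V]

/-- Weight between two vertex sets. -/
noncomputable def ew (w : V → V → ℕ) (A B : Finset V) : ℕ := ∑ a ∈ A, ∑ b ∈ B, w a b

/-- Weight of the ordered pairs lying in different classes. -/
noncomputable def cross (w : V → V → ℕ) {r : ℕ} (f : V → Fin r) : ℕ :=
  ∑ u, ∑ v, if f u = f v then 0 else w u v

/-- A colour class. -/
noncomputable def part {r : ℕ} (f : V → Fin r) (i : Fin r) : Finset V := univ.filter (f · = i)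

/-- The degree in a simple graph. -/
noncomputable def dg (H : SimpleGraph V) (v : V) : ℕ := (univ.filter (H.Adj v)).card

lemma mem_part {r : ℕ} {f : V → Fin r} {i : Fin r} {v : V} : v ∈ part f i ↔ f v = i := by
  simp [part]

lemma ew_symm {w : V → V → ℕ} (hsym : ∀ u v, w u v = w v u) (A B : Finset V) :
    ew w A B = ew w B A := by
  unfold ew
  rw [Finset.sum_comm]
  simp [hsym]

lemma ew_le (w : V → V → ℕ) {μ : ℕ} (hμ : ∀ u v, w u v ≤ μ) (A B : Finset V) :
    ew w A B ≤ A.card * (B.card * μ) := by
  refine (sum_le_sum fun a _ => sum_le_sum fun b _ => hμ a b).trans ?_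
  simp

lemma ew_union (w : V → V → ℕ) (A : Finset V) {B C : Finset V} (h : Disjoint B C) :
    ew w A (B ∪ C) = ew w A B + ew w A C := by
  simp [ew, sum_union h, sum_add_distrib]

lemma ew_mono (w : V → V → ℕ) {A A' B B' : Finset V} (hA : A ⊆ A') (hB : B ⊆ B') :
    ew w A B ≤ ew w A' B' := by
  refine (sum_le_sum fun a _ => sum_le_sum_of_subset hB).trans ?_
  exact sum_le_sum_of_subset hA

/-- A connected subgraph of bounded degree on a part without sparse cuts. -/
lemma part_graph (w : V → V → ℕ) (hsym : ∀ u v, w u v = w v u) (k μ c : ℕ) (hk : 1 ≤ k)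
    (hc : 1 ≤ c) (hn : Fintype.card V * μ ≤ c * k) (hμ : ∀ u v, w u v ≤ μ)
    (P : Finset V) (hP : P.Nonempty)
    (hdeg : ∀ v ∈ P, k ≤ 4 * c * ew w {v} P)
    (hcut : ∀ A, A ⊆ P → 8 * c * μ * A.card ≤ k ∨ 8 * c * μ * (P \ A).card ≤ k ∨
      k ^ 2 ≤ 64 * c ^ 2 * μ * ew w A (P \ A)) :
    ∃ H : SimpleGraph V, (∀ u v, H.Adj u v → u ∈ P ∧ v ∈ P ∧ 0 < w u v) ∧
      (∀ u ∈ P, ∀ v ∈ P, H.Reachable u v) ∧ ∀ v, dg H v ≤ 129 * c ^ 4 := by
  set D := 129 * c ^ 4 with hD
  have hc4 : 1 ≤ c ^ 4 := Nat.one_le_pow _ _ hc
  obtain ⟨p, hp⟩ := hP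
  set Good : Finset V → Prop := fun X => ∃ H : SimpleGraph V,
    (∀ u v, H.Adj u v → u ∈ X ∧ v ∈ X ∧ 0 < w u v) ∧ (∀ u ∈ X, H.Reachable p u) ∧
    (∑ v, dg H v) ≤ 2 * X.card ∧ ∀ v, dg H v ≤ D with hGood
  have h0 : Good {p} := ⟨⊥, by simp, by
    intro u hu
    rw [mem_singleton] at hu
    subst hu
    exact SimpleGraph.Reachable.refl _, by simp [dg], by simp [dg]⟩
  obtain ⟨X, hX, hmax⟩ := exists_max_image (P.powerset.filter Good) Finset.card
    ⟨{p}, by simp [hp, h0]⟩
  rw [mem_filter, mem_powerset] at hX
  obtain ⟨hXP, H, hadj, hreach, hsum, hD'⟩ := hX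
  suffices hall : X = P by
    subst hall
    exact ⟨H, hadj,
      fun u hu v hv => (hreach u hu).symm.trans (hreach v hv), hD'⟩
  by_contra hne
  set Sat := X.filter fun v => dg H v = D with hSat
  set Y := P \ X with hY
  have hYne : Y.Nonempty := by
    rw [hY, sdiff_nonempty]
    exact fun h => hne (subset_antisymm hXP h)
  have hXne : X.Nonempty := by
    by_contra h
    rw [not_nonempty_iff_eq_empty] at h
    have h1 := hmax {p} (by simp [hp, h0])
    simp [h] at h1
  -- only saturated vertices have edges to `Y`
  have honly : ∀ x ∈ X, x ∉ Sat → ∀ y ∈ Y, w x y = 0 := by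
    intro x hx hns y hy
    by_contra hw
    rw [hY, mem_sdiff] at hy
    have hxy : x ≠ y := fun e => hy.2 (e ▸ hx)
    have hy0 : dg H y = 0 := by
      simp only [dg, card_eq_zero, filter_eq_empty_iff]
      exact fun u _ h => hy.2 (hadj y u h).1
    have hlt : dg H x < D := lt_of_le_of_ne (hD' x) fun e => hns (by simp [hSat, hx, e])
    have hdg : ∀ v, dg (H ⊔ SimpleGraph.edge x y) v ≤
        dg H v + (if v = x then 1 else 0) + (if v = y then 1 else 0) := by
      intro v
      have hsub : univ.filter ((H ⊔ SimpleGraph.edge x y).Adj v) ⊆ univ.filter (H.Adj v) ∪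
          ((if v = x then {y} else ∅) ∪ (if v = y then {x} else ∅)) := by
        intro u hu
        simp only [mem_filter, mem_univ, true_and, SimpleGraph.sup_adj, SimpleGraph.edge_adj] at hu
        rcases hu with h | ⟨⟨rfl, rfl⟩ | ⟨rfl, rfl⟩, _⟩ <;> simp [*]
      have h1 := (card_le_card hsub).trans (card_union_le _ _)
      have h2 : ((if v = x then {y} else ∅) ∪ (if v = y then {x} else ∅) : Finset V).card ≤
          (if v = x then 1 else 0) + (if v = y then 1 else 0) := by
        refine (card_union_le _ _).trans ?_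
        split_ifs <;> simp
      have h3 : dg (H ⊔ SimpleGraph.edge x y) v =
          (univ.filter ((H ⊔ SimpleGraph.edge x y).Adj v)).card := by
        unfold dg; congr 1; ext u; simp
      have h4 : dg H v = (univ.filter (H.Adj v)).card := rfl
      have : dg (H ⊔ SimpleGraph.edge x y) v ≤ dg H v +
          ((if v = x then {y} else ∅) ∪ (if v = y then {x} else ∅) : Finset V).card := by
        rw [h3, h4]; convert h1 using 2
      omega
    have hgood : Good (insert y X) := by
      refine ⟨H ⊔ SimpleGraph.edge x y, ?_, ?_, ?_, ?_⟩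
      · intro u v h
        simp only [SimpleGraph.sup_adj, SimpleGraph.edge_adj] at h
        rcases h with h | ⟨⟨rfl, rfl⟩ | ⟨rfl, rfl⟩, _⟩
        · obtain ⟨a, b, d⟩ := hadj u v h
          exact ⟨mem_insert_of_mem a, mem_insert_of_mem b, d⟩
        · exact ⟨mem_insert_of_mem hx, mem_insert_self _ _, by omega⟩
        · exact ⟨mem_insert_self _ _, mem_insert_of_mem hx, by rw [hsym]; omega⟩
      · intro u hu
        rcases mem_insert.1 hu with rfl | hu
        · exact ((hreach x hx).mono le_sup_left).trans
            (SimpleGraph.Adj.reachable (by simp [SimpleGraph.edge_adj, hxy]))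
        · exact (hreach u hu).mono le_sup_left
      · refine (sum_le_sum fun v _ => hdg v).trans ?_
        rw [sum_add_distrib, sum_add_distrib, card_insert_of_notMem hy.2]
        simp
        omega
      · intro v
        refine (hdg v).trans ?_
        have := hD' v
        split_ifs with a b b
        · exact absurd (a.symm.trans b) hxy
        · subst a; omega
        · subst b; omega
        · omega
    have := hmax (insert y X) (by simp [hgood, insert_subset_iff, hy.1, hXP])
    rw [card_insert_of_notMem hy.2] at this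
    omega
  have hSat2 : D * Sat.card ≤ 2 * X.card := by
    calc D * Sat.card = ∑ v ∈ Sat, dg H v := by
          rw [sum_congr rfl (fun v hv => (mem_filter.1 hv).2), sum_const, smul_eq_mul, mul_comm]
      _ ≤ ∑ v, dg H v := sum_le_sum_of_subset (subset_univ _)
      _ ≤ _ := hsum
  have hXn : X.card ≤ Fintype.card V := card_le_univ _
  have hYn : Y.card ≤ Fintype.card V := card_le_univ _
  have hSμ : D * (μ * Sat.card) ≤ 2 * (c * k) := by
    calc D * (μ * Sat.card) = μ * (D * Sat.card) := by ring
      _ ≤ μ * (2 * X.card) := Nat.mul_le_mul_left _ hSat2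
      _ ≤ 2 * (Fintype.card V * μ) := by nlinarith
      _ ≤ _ := Nat.mul_le_mul_left _ hn
  have heXY : ew w X Y ≤ Sat.card * (Y.card * μ) := by
    have : ew w X Y = ew w Sat Y := by
      unfold ew
      symm
      refine sum_subset (filter_subset _ _) fun x hx hns => ?_
      exact sum_eq_zero fun y hy => honly x hx hns y hy
    rw [this]
    exact ew_le w hμ _ _
  have hsplit : ∀ v, ew w {v} P = ew w {v} X + ew w {v} Y := by
    intro v
    rw [hY, ← ew_union w _ disjoint_sdiff, union_sdiff_of_subset hXP]
  rcases hcut X hXP with h | h | h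
  · obtain ⟨x, hx, hns⟩ : ∃ x ∈ X, x ∉ Sat := by
      by_contra hcon
      push Not at hcon
      have : X.card ≤ Sat.card := card_le_card hcon
      have := hXne.card_pos
      nlinarith
    have h1 : ew w {x} Y = 0 := by
      simp only [ew, sum_singleton]
      exact sum_eq_zero fun y hy => honly x hx hns y hy
    have h2 := hsplit x
    have h3 := ew_le w hμ {x} X
    simp only [card_singleton, one_mul] at h3
    have h4 := hdeg x (hXP hx)
    have h5 := Nat.mul_le_mul_left (8 * c) (show ew w {x} P ≤ X.card * μ by omega)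
    nlinarith
  · obtain ⟨y, hy⟩ := hYne
    have h1 : ew w {y} X ≤ Sat.card * μ := by
      have e : ew w {y} X = ew w {y} Sat := by
        simp only [ew, sum_singleton]
        symm
        refine sum_subset (filter_subset _ _) fun x hx hns => ?_
        rw [hsym]
        exact honly x hx hns y hy
      rw [e]
      simpa using ew_le w hμ {y} Sat
    have h3 := ew_le w hμ {y} Y
    simp only [card_singleton, one_mul] at h3
    have h4 := hdeg y (mem_sdiff.1 hy).1
    have h2 := hsplit y
    have h5 := Nat.mul_le_mul_left (8 * c * D) (show ew w {y} P ≤ Sat.card * μ + Y.card * μ by omega)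
    have h6 : 16 * c ^ 2 < D := by
      have : c ^ 2 ≤ c ^ 4 := Nat.pow_le_pow_right hc (by norm_num)
      omega
    have h7 := Nat.mul_le_mul_left (8 * c) hSμ
    have h8 := Nat.mul_le_mul_left D h
    have h9 := Nat.mul_le_mul_left (2 * D) h4
    nlinarith
  · have h1 : μ * ew w X Y * D ≤ 2 * c ^ 2 * k ^ 2 := by
      calc μ * ew w X Y * D ≤ μ * (Sat.card * (Y.card * μ)) * D := by gcongr
        _ = (D * (μ * Sat.card)) * (Y.card * μ) := by ring
        _ ≤ (2 * (c * k)) * (c * k) :=
          Nat.mul_le_mul hSμ ((Nat.mul_le_mul_right _ hYn).trans hn)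
        _ = _ := by ring
    have h2 := Nat.mul_le_mul_left D h
    have h3 : 64 * c ^ 2 * (2 * c ^ 2) < D := by
      rw [hD]
      nlinarith
    have h4 := Nat.mul_le_mul_left (64 * c ^ 2) h1
    have hk2 : 0 < k ^ 2 := by positivity
    nlinarith

lemma cross_out (w : V → V → ℕ) (hsym : ∀ u v, w u v = w v u) {r : ℕ} (f : V → Fin r)
    (i : Fin r) (A : Finset V) (hA : A ⊆ part f i) :
    2 * ew w A (part f i)ᶜ ≤ cross w f := by
  have e1 : ew w A (part f i)ᶜ + ew w (part f i)ᶜ A ≤ cross w f := by
    have : ∀ u v, (if u ∈ A ∧ v ∉ part f i then w u v else 0) +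
        (if u ∉ part f i ∧ v ∈ A then w u v else 0) ≤ if f u = f v then 0 else w u v := by
      intro u v
      by_cases hu : u ∈ A ∧ v ∉ part f i
      · have h1 := mem_part.1 (hA hu.1)
        have h2 : ¬ (u ∉ part f i ∧ v ∈ A) := fun h => h.1 (hA hu.1)
        have h3 : f u ≠ f v := fun e => hu.2 (mem_part.2 (by rw [← e, h1]))
        simp [hu, h2, h3]
      · by_cases hv : u ∉ part f i ∧ v ∈ A
        · have h3 : f u ≠ f v := fun e =>
            hv.1 (mem_part.2 (by rw [e]; exact mem_part.1 (hA hv.2)))
          simp [hu, hv, h3]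
        · simp [hu, hv]
    have h := sum_le_sum (s := univ) fun u _ => sum_le_sum (s := univ) fun v _ => this u v
    simp only [sum_add_distrib] at h
    refine le_trans (le_of_eq ?_) h
    unfold ew
    congr 1 <;>
    · rw [← sum_subset (subset_univ _) (fun u _ hu => ?_)]
      · refine sum_congr rfl fun u hu => ?_
        rw [← sum_filter]
        refine sum_congr ?_ fun _ _ => rfl
        ext v
        simp_all
      · refine sum_eq_zero fun v _ => ?_
        simp_all
  rw [ew_symm hsym (part f i)ᶜ A] at e1
  omega

lemma cross_update (w : V → V → ℕ) (hsym : ∀ u v, w u v = w v u) (h0 : ∀ v, w v v = 0) {r : ℕ}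
    (f : V → Fin r) (v : V) (j : Fin r) (g : V → Fin r) (hg : g = Function.update f v j) :
    cross w g + 2 * ew w {v} (part f j) = cross w f + 2 * ew w {v} (part f (f v)) := by
  have key : ∀ a b, (if g a = g b then 0 else w a b) +
      ((if a = v then (if f b = j then w a b else 0) else 0) +
        (if b = v then (if f a = j then w a b else 0) else 0)) =
      (if f a = f b then 0 else w a b) +
      ((if a = v then (if f b = f v then w a b else 0) else 0) +
        (if b = v then (if f a = f v then w a b else 0) else 0)) := by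
    intro a b
    by_cases ha : a = v <;> by_cases hb : b = v
    · subst ha hb; simp [h0]
    · subst ha
      rw [hg, Function.update_self, Function.update_of_ne hb]
      simp only [hb, if_true, if_false, add_zero]
      grind
    · subst hb
      rw [hg, Function.update_self, Function.update_of_ne ha]
      simp only [ha, if_true, if_false, zero_add]
      grind
    · simp [hg, Function.update_of_ne ha, Function.update_of_ne hb, ha, hb]
  have h := Fintype.sum_congr _ _ fun a => Fintype.sum_congr _ _ fun b => key a b
  have ev : ∀ i, ew w {v} (part f i) =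
      ∑ a, ∑ b, (if b = v then (if f a = i then w a b else 0) else 0) := by
    intro i
    simp [ew, part, sum_filter, hsym v]
  have ev' : ∀ i, ew w {v} (part f i) =
      ∑ a, ∑ b, (if a = v then (if f b = i then w a b else 0) else 0) := by
    intro i
    rw [Finset.sum_comm]
    simp [ew, part, sum_filter]
  simp only [sum_add_distrib, ← ev, ← ev'] at h
  unfold cross
  omega

lemma cross_split (w : V → V → ℕ) {r : ℕ} (f : V → Fin r) (i : Fin r) (A B : Finset V)
    (hA : A ⊆ part f i) (hB : B = part f i \ A) (g : V → Fin (r + 1))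
    (hg : g = fun v => if v ∈ A then Fin.last r else (f v).castSucc) :
    cross w g ≤ cross w f + (ew w A B + ew w B A) := by
  have : ∀ u v, (if g u = g v then 0 else w u v) ≤ (if f u = f v then 0 else w u v) +
      ((if u ∈ A ∧ v ∈ B then w u v else 0) + (if u ∈ B ∧ v ∈ A then w u v else 0)) := by
    intro u v
    by_cases hfe : f u = f v
    · by_cases hu : u ∈ A <;> by_cases hv : v ∈ A
      · simp [hg, hu, hv]
      · have : v ∈ B := hB ▸ mem_sdiff.2 ⟨mem_part.2 (hfe ▸ mem_part.1 (hA hu)), hv⟩
        simp [hu, this]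
        split_ifs <;> omega
      · have : u ∈ B := hB ▸ mem_sdiff.2 ⟨mem_part.2 (hfe ▸ mem_part.1 (hA hv)), hu⟩
        simp [hv, this]
        split_ifs <;> omega
      · simp [hg, hu, hv, hfe]
    · simp [hfe]
      split_ifs <;> omega
  refine (sum_le_sum fun u _ => sum_le_sum fun v _ => this u v).trans (le_of_eq ?_)
  simp only [sum_add_distrib, cross, ew]
  congr 2 <;> simp [ite_and, sum_ite_mem, ← sum_filter]

/-- The partition with its connected bounded-degree subgraphs. -/
lemma main_partition (w : V → V → ℕ) (hsym : ∀ u v, w u v = w v u) (h0 : ∀ v, w v v = 0)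
    (k μ c : ℕ) (hk : 1 ≤ k) (hc : 1 ≤ c) (hμ : ∀ u v, w u v ≤ μ)
    (hn : Fintype.card V * μ ≤ c * k) (hV : Nontrivial V) (h4μ : 4 * μ ≤ k)
    (hcon : ∀ S : Finset V, S.Nonempty → S ≠ univ → k ≤ ew w S Sᶜ) :
    ∃ r ≤ 4 * c, ∃ f : V → Fin r, ∃ H : Fin r → SimpleGraph V,
      ∀ i, (∀ u v, (H i).Adj u v → u ∈ part f i ∧ v ∈ part f i ∧ 0 < w u v) ∧
        (∀ u ∈ part f i, ∀ v ∈ part f i, (H i).Reachable u v) ∧
        (∀ v, dg (H i) v ≤ 129 * c ^ 4) ∧
        ∀ A, A ⊆ part f i → k * A.card ≤ 8 * c * ew w A (part f i \ A) ∨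
          k * (part f i \ A).card ≤ 8 * c * ew w A (part f i \ A) ∨
          k * Fintype.card V ≤ 64 * c ^ 3 * ew w A (part f i \ A) := by
  obtain ⟨v0⟩ := hV.to_nonempty
  have hdegk : ∀ v, k ≤ ew w {v} univ := by
    intro v
    refine (hcon {v} (singleton_nonempty _) ?_).trans (ew_mono w subset_rfl (subset_univ _))
    intro h
    obtain ⟨u, hu⟩ := exists_ne v
    exact hu (mem_singleton.1 (h ▸ mem_univ u))
  have hnμ : k ≤ Fintype.card V * μ := by
    simpa using (hdegk v0).trans (ew_le w hμ {v0} univ)
  set Good : (r : ℕ) → (V → Fin r) → Prop := fun r f => (∀ i, k < 4 * μ * (part f i).card) ∧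
    64 * c ^ 2 * μ * cross w f ≤ 2 * (r - 1) * k ^ 2 with hGood
  have hbound : ∀ r f, Good r f → r ≤ 4 * c := by
    intro r f hf
    have h1 : r * k ≤ ∑ i, 4 * μ * (part f i).card := by
      simpa using sum_le_sum (s := (univ : Finset (Fin r))) fun i _ => (hf.1 i).le
    have h2 : ∑ i, (part f i).card = Fintype.card V :=
      (card_eq_sum_card_fiberwise fun v _ => mem_univ (f v)).symm
    rw [← mul_sum, h2] at h1
    refine Nat.le_of_mul_le_mul_right (c := k) ?_ hk
    nlinarith
  have hex : ∃ f, Good 1 f := by
    refine ⟨fun _ => 0, fun i => ?_, by simp [cross]⟩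
    have : part (fun _ : V => (0 : Fin 1)) i = univ := by
      ext v
      simp [mem_part, Subsingleton.elim i 0]
    rw [this, card_univ]
    nlinarith
  obtain ⟨r, hr, hrmax⟩ := exists_max_image
    ((range (4 * c + 1)).filter fun r => ∃ f, Good r f) id
    ⟨1, mem_filter.2 ⟨mem_range.2 (by omega), hex⟩⟩
  rw [mem_filter] at hr
  obtain ⟨f, hf, hfmin⟩ := exists_min_image (univ.filter (Good r)) (cross w)
    ⟨hr.2.choose, by simp [hr.2.choose_spec]⟩
  rw [mem_filter] at hf
  replace hf := hf.2
  have hrc := hbound r f hf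
  have hrpos : 1 ≤ r := Fin.pos (f v0)
  have hout := cross_out w hsym f
  have hout' : ∀ i, ∀ A, A ⊆ part f i →
      64 * c ^ 2 * μ * ew w A (part f i)ᶜ ≤ 4 * c * k ^ 2 := by
    intro i A hA
    have h1 := Nat.mul_le_mul_left (64 * c ^ 2 * μ) (hout i A hA)
    have h2 : 2 * (r - 1) * k ^ 2 ≤ 2 * (4 * c) * k ^ 2 := by gcongr; omega
    have h3 := hf.2
    nlinarith
  have hsize : ∀ i, k < 2 * μ * (part f i).card := by
    intro i
    by_contra hsm
    push Not at hsm
    set P := part f i with hP
    have h1 : P.card * k ≤ ew w P Pᶜ + P.card * (P.card * μ) := by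
      have e : ew w P univ = ew w P Pᶜ + ew w P P := by
        rw [← ew_union w _ (disjoint_compl_left), union_comm, union_compl]
      have : P.card * k ≤ ew w P univ := by
        have := sum_le_sum (s := P) fun v _ => hdegk v
        simpa [ew] using this
      have := ew_le w hμ P P
      omega
    have h2 := hout' i P subset_rfl
    have h3 := hf.1 i
    rw [← hP] at h3
    have h4 : P.card * k ≤ 2 * ew w P Pᶜ := by nlinarith
    have h5 := Nat.mul_le_mul_left (64 * c ^ 2 * μ) h4
    have hc2 : c ≤ c ^ 2 := Nat.le_self_pow two_ne_zero c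
    have h7 : 16 * c ^ 2 * k ^ 2 + 16 * c^2 * k ≤ 64 * c ^ 2 * μ * (P.card * k) := by
      have := Nat.mul_le_mul_left (16 * c ^ 2 * k) (show k + 1 ≤ 4 * μ * P.card by omega)
      nlinarith
    have : 0 < 16 * c ^ 2 * k := by positivity
    have := Nat.mul_le_mul_right (k ^ 2) hc2
    nlinarith
  have hloc : ∀ v, k ≤ 4 * c * ew w {v} (part f (f v)) := by
    intro v
    have hle : ∀ j, ew w {v} (part f j) ≤ ew w {v} (part f (f v)) := by
      intro j
      by_cases hj : j = f v
      · subst hj; rfl
      by_contra hlt
      push Not at hlt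
      set g := Function.update f v j with hg
      have e := cross_update w hsym h0 f v j g hg
      have hgood : Good r g := by
        refine ⟨fun i => ?_, ?_⟩
        · by_cases hi : i = f v
          · subst hi
            have : (part f (f v)).erase v ⊆ part g (f v) := by
              intro u hu
              rw [mem_erase] at hu
              rw [mem_part, hg, Function.update_of_ne hu.1]
              exact mem_part.1 hu.2
            have h1 := card_le_card this
            rw [card_erase_of_mem (mem_part.2 rfl)] at h1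
            have h2 := hsize (f v)
            have h3 : 4 * μ * ((part f (f v)).card - 1) + 4 * μ =
                4 * μ * (part f (f v)).card := by
              rw [← mul_add_one, Nat.sub_add_cancel (one_le_card.2 ⟨v, mem_part.2 rfl⟩)]
            have := Nat.mul_le_mul_left (4 * μ) h1
            nlinarith
          · have : part f i ⊆ part g i := by
              intro u hu
              have hne : u ≠ v := fun e => hi (by rw [← mem_part.1 hu, e])
              rw [mem_part, hg, Function.update_of_ne hne]
              exact mem_part.1 hu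
            exact (hf.1 i).trans_le (Nat.mul_le_mul_left _ (card_le_card this))
        · exact (Nat.mul_le_mul_left _ (by omega)).trans hf.2
      have := hfmin g (by simp [hgood])
      omega
    have e : ew w {v} univ = ∑ j, ew w {v} (part f j) := by
      simp only [ew, sum_singleton, part]
      exact (sum_fiberwise univ f _).symm
    calc k ≤ ew w {v} univ := hdegk v
      _ = _ := e
      _ ≤ ∑ _j : Fin r, ew w {v} (part f (f v)) := sum_le_sum fun j _ => hle j
      _ ≤ 4 * c * _ := by
        simp only [sum_const, card_univ, Fintype.card_fin, smul_eq_mul]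
        exact Nat.mul_le_mul_right _ hrc
  have hclaim : ∀ i A, A ⊆ part f i → 8 * c * μ * A.card ≤ k ∨
      8 * c * μ * (part f i \ A).card ≤ k ∨
      k ^ 2 ≤ 64 * c ^ 2 * μ * ew w A (part f i \ A) := by
    intro i A hA
    by_contra hno
    push Not at hno
    obtain ⟨n1, n2, n3⟩ := hno
    set P := part f i with hP
    set B := P \ A with hB
    have small : ∀ A B : Finset V, A ⊆ P → B = P \ A → k < 8 * c * μ * A.card →
        4 * μ * A.card ≤ k → k ^ 2 ≤ 64 * c ^ 2 * μ * ew w A B := by
      intro A B hA hB m1 m2
      have e : ew w A univ ≤ ew w A B + ew w A Pᶜ + ew w A A := by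
        rw [hB, ← ew_union, ← ew_union]
        · refine le_of_eq (congrArg _ ?_)
          ext u
          simp only [mem_union, mem_sdiff, mem_compl, mem_univ, true_iff]
          tauto
        · rw [disjoint_left]
          intro u hu hu'
          simp only [mem_union, mem_sdiff, mem_compl] at hu
          rcases hu with h | h
          · exact h.2 hu'
          · exact h (hA hu')
        · rw [disjoint_left]
          intro u hu
          simp only [mem_sdiff] at hu
          simp [hu.1]
      have h1 : A.card * k ≤ ew w A univ := by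
        have := sum_le_sum (s := A) fun v _ => hdegk v
        simpa [ew] using this
      have h2 := ew_le w hμ A A
      have h3 : 3 * (A.card * k) ≤ 4 * (ew w A B + ew w A Pᶜ) := by nlinarith
      have h4 := Nat.mul_le_mul_left (16 * c ^ 2 * μ) h3
      have h5 := hout' i A hA
      rw [← hP] at h5
      have h6 := Nat.mul_le_mul_left (6 * c * k) m1.le
      have h7 : k ^ 2 ≤ c * k ^ 2 := Nat.le_mul_of_pos_left _ hc
      nlinarith
    by_cases mA : 4 * μ * A.card ≤ k
    · exact absurd (small A B hA hB n1 mA) (not_le.2 n3)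
    by_cases mB : 4 * μ * B.card ≤ k
    · have := small B A sdiff_subset (by rw [hB, sdiff_sdiff_right_self]; exact
        (inter_eq_right.2 hA).symm) n2 mB
      rw [ew_symm hsym] at this
      exact absurd this (not_le.2 n3)
    -- splitting the part gives a good partition with more classes
    set g : V → Fin (r + 1) := fun v => if v ∈ A then Fin.last r else (f v).castSucc with hg
    have hgood : Good (r + 1) g := by
      refine ⟨fun j => ?_, ?_⟩
      · induction j using Fin.lastCases with
        | last =>
          have : A ⊆ part g (Fin.last r) := fun u hu => mem_part.2 (by simp [hg, hu])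
          exact (not_le.1 mA).trans_le (Nat.mul_le_mul_left _ (card_le_card this))
        | cast j =>
          have : part f j \ A ⊆ part g j.castSucc := fun u hu => by
            rw [mem_sdiff] at hu
            exact mem_part.2 (by simp [hg, hu.2, mem_part.1 hu.1])
          refine lt_of_lt_of_le ?_ (Nat.mul_le_mul_left _ (card_le_card this))
          by_cases hj : j = i
          · subst hj; exact not_le.1 mB
          · have hd : part f j \ A = part f j := by
              refine sdiff_eq_self_of_disjoint (disjoint_left.2 fun u hu hu' => hj ?_)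
              rw [← mem_part.1 hu, mem_part.1 (hA hu')]
            rw [hd]; exact hf.1 j
      · have e := cross_split w f i A B hA hB g hg
        rw [ew_symm hsym B A] at e
        have h1 := Nat.mul_le_mul_left (64 * c ^ 2 * μ) e
        have h2 := hf.2
        have h3 : 2 * (r + 1 - 1) * k ^ 2 = 2 * (r - 1) * k ^ 2 + 2 * k ^ 2 := by
          obtain ⟨s, rfl⟩ := Nat.exists_eq_add_of_le' hrpos
          simp only [Nat.add_sub_cancel]
          ring
        nlinarith
    have := hbound _ _ hgood
    have := hrmax (r + 1) (mem_filter.2 ⟨mem_range.2 (by omega), g, hgood⟩)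
    simp at this
  have hne : ∀ i, (part f i).Nonempty := by
    intro i
    rw [← card_pos]
    have := hf.1 i
    exact Nat.pos_of_ne_zero fun h => by simp [h] at this
  have hH : ∀ i, ∃ H : SimpleGraph V, _ := fun i => part_graph w hsym k μ c hk hc hn hμ
    (part f i) (hne i) (fun v hv => by rw [← mem_part.1 hv]; exact hloc v) (hclaim i)
  choose H h1 h2 h3 using hH
  refine ⟨r, hrc, f, H, fun i => ⟨h1 i, h2 i, h3 i, fun A hA => ?_⟩⟩
  have small : ∀ A B : Finset V, A ⊆ part f i → B = part f i \ A → 8 * c * μ * A.card ≤ k →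
      k * A.card ≤ 8 * c * ew w A B := by
    intro A B hA hB hs
    have : ∀ a ∈ A, k ≤ 8 * c * ew w {a} B := by
      intro a ha
      have h4 := hloc a
      rw [mem_part.1 (hA ha)] at h4
      have e : ew w {a} (part f i) = ew w {a} A + ew w {a} B := by
        rw [← ew_union w _ (hB ▸ disjoint_sdiff), hB, union_sdiff_of_subset hA]
      have h5 := ew_le w hμ {a} A
      simp only [card_singleton, one_mul] at h5
      have := Nat.mul_le_mul_left (8 * c) h5
      nlinarith
    calc k * A.card = ∑ _a ∈ A, k := by simp [mul_comm]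
      _ ≤ ∑ a ∈ A, 8 * c * ew w {a} B := sum_le_sum this
      _ = _ := by simp [ew, mul_sum]
  rcases hclaim i A hA with h | h | h
  · exact Or.inl (small A _ hA rfl h)
  · refine Or.inr (Or.inl ?_)
    have := small _ A sdiff_subset
      (by rw [sdiff_sdiff_right_self]; exact (inter_eq_right.2 hA).symm) h
    rwa [ew_symm hsym] at this
  · refine Or.inr (Or.inr ?_)
    refine Nat.le_of_mul_le_mul_right (c := k) ?_ hk
    calc k * Fintype.card V * k = Fintype.card V * k ^ 2 := by ring
      _ ≤ Fintype.card V * (64 * c ^ 2 * μ * ew w A (part f i \ A)) := Nat.mul_le_mul_left _ h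
      _ = 64 * c ^ 2 * ew w A (part f i \ A) * (Fintype.card V * μ) := by ring
      _ ≤ 64 * c ^ 2 * ew w A (part f i \ A) * (c * k) := Nat.mul_le_mul_left _ hn
      _ = _ := by ring

/-- Thin trees exist when `n * μ ≤ c * k`. -/
theorem thin_tree (w : V → V → ℕ) (hsym : ∀ u v, w u v = w v u) (h0 : ∀ v, w v v = 0)
    (k μ c : ℕ) (hk : 1 ≤ k) (hV : Nonempty V) (hμ : ∀ u v, w u v ≤ μ)
    (hn : Fintype.card V * μ ≤ c * k)
    (hcon : ∀ S : Finset V, S.Nonempty → S ≠ univ → k ≤ ew w S Sᶜ) :
    ∃ T : SimpleGraph V, T.IsTree ∧ (∀ u v, T.Adj u v → 0 < w u v) ∧ ∀ S : Finset V,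
      k * ((S ×ˢ Sᶜ).filter fun p => T.Adj p.1 p.2).card ≤
        (8256 * c ^ 7 + 1032 * c ^ 5 + 32 * c ^ 2) * ew w S Sᶜ := by
  -- a connected support graph
  set G : SimpleGraph V := SimpleGraph.fromRel fun u v => 0 < w u v with hG
  have hGadj : ∀ u v, G.Adj u v → 0 < w u v := by
    intro u v h
    rw [hG, SimpleGraph.fromRel_adj] at h
    rcases h.2 with h | h
    · exact h
    · rw [hsym]; exact h
  have hGc : G.Connected := by
    rw [SimpleGraph.connected_iff_exists_forall_reachable]
    obtain ⟨p⟩ := hV
    refine ⟨p, fun v => ?_⟩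
    by_contra hv
    set S := univ.filter (G.Reachable p) with hS
    have h1 := hcon S ⟨p, by simp [hS]⟩ fun e => hv (by have h := mem_univ v; rw [← e] at h; simpa [hS] using h)
    have h2 : ew w S Sᶜ = 0 := by
      refine sum_eq_zero fun a ha => sum_eq_zero fun b hb => ?_
      by_contra hw
      simp only [hS, mem_filter, mem_univ, true_and, mem_compl] at ha hb
      refine hb (ha.trans (SimpleGraph.Adj.reachable ?_))
      rw [hG, SimpleGraph.fromRel_adj]
      refine ⟨fun e => hw (by rw [e, h0]), Or.inl (Nat.pos_of_ne_zero hw)⟩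
    omega
  by_cases hsmall : Nontrivial V ∧ 4 * μ ≤ k
  · obtain ⟨hnt, h4μ⟩ := hsmall
    have hc : 1 ≤ c := by
      rcases Nat.eq_zero_or_pos c with rfl | h
      · obtain ⟨u⟩ := hV
        obtain ⟨v, hv⟩ := exists_ne u
        have h1 := (hcon {u} (singleton_nonempty _) fun e =>
          hv (mem_singleton.1 (e ▸ mem_univ v))).trans (ew_le w hμ _ _)
        have h2 := card_le_univ ({u}ᶜ : Finset V)
        simp only [card_singleton, one_mul] at h1
        nlinarith
      · exact h
    obtain ⟨r, hr, f, H, hH⟩ := main_partition w hsym h0 k μ c hk hc hμ hn hnt h4μ hcon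
    -- representatives for adjacent pairs of parts
    set rep : Fin r × Fin r → V × V := fun q =>
      if h : ∃ p : V × V, f p.1 = q.1 ∧ f p.2 = q.2 ∧ 0 < w p.1 p.2 then h.choose
      else (hV.some, hV.some) with hrep
    set F : Finset (V × V) := univ.image rep ∪ univ.image (fun q => (rep q).swap) with hF
    set K : SimpleGraph V := SimpleGraph.fromRel fun u v =>
      0 < w u v ∧ ((f u = f v ∧ (H (f u)).Adj u v) ∨ (u, v) ∈ F) with hK
    have hKadj : ∀ u v, K.Adj u v → 0 < w u v ∧ ((f u = f v ∧ (H (f u)).Adj u v) ∨ (u, v) ∈ F) := by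
      intro u v h
      rw [hK, SimpleGraph.fromRel_adj] at h
      rcases h.2 with h | ⟨hw, h⟩
      · exact h
      · refine ⟨by rw [hsym]; exact hw, ?_⟩
        rcases h with ⟨e, h⟩ | h
        · exact Or.inl ⟨e.symm, by rw [← e]; exact h.symm⟩
        · refine Or.inr ?_
          simp only [hF, mem_union, mem_image, mem_univ, true_and] at h ⊢
          rcases h with ⟨q, hq⟩ | ⟨q, hq⟩
          · exact Or.inr ⟨q, by simp [hq]⟩
          · exact Or.inl ⟨q, by rw [← Prod.swap_swap (rep q), hq]; rfl⟩
    have hKmk : ∀ u v, u ≠ v → 0 < w u v → ((f u = f v ∧ (H (f u)).Adj u v) ∨ (u, v) ∈ F) →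
        K.Adj u v := by
      intro u v hne hw h
      rw [hK, SimpleGraph.fromRel_adj]
      exact ⟨hne, Or.inl ⟨hw, h⟩⟩
    have hin : ∀ u v, f u = f v → K.Reachable u v := by
      intro u v e
      obtain ⟨p⟩ := (hH (f u)).2.1 u (mem_part.2 rfl) v (mem_part.2 e.symm)
      suffices hstep : ∀ a b, (H (f u)).Walk a b → K.Reachable a b from hstep u v p
      intro a b q
      induction q with
      | nil => exact SimpleGraph.Reachable.refl _
      | @cons a b d hab q ih =>
        obtain ⟨ha, hb, hw⟩ := (hH (f u)).1 a b hab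
        rw [mem_part] at ha hb
        refine (SimpleGraph.Adj.reachable (hKmk a b hab.ne hw (Or.inl ?_))).trans ih
        exact ⟨ha.trans hb.symm, ha ▸ hab⟩
    have hKc : K.Connected := by
      rw [SimpleGraph.connected_iff_exists_forall_reachable]
      suffices hstep : ∀ a b, G.Walk a b → K.Reachable a b from
        ⟨hV.some, fun v => hstep _ v (hGc.preconnected _ v).some⟩
      intro a b q
      clear_value rep F K
      induction q with
      | nil => exact SimpleGraph.Reachable.refl _
      | @cons a b d hab q ih =>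
        refine SimpleGraph.Reachable.trans ?_ ih
        by_cases e : f a = f b
        · exact hin a b e
        have hex : ∃ p : V × V, f p.1 = f a ∧ f p.2 = f b ∧ 0 < w p.1 p.2 :=
          ⟨(a, b), rfl, rfl, hGadj a b hab⟩
        have hval : rep (f a, f b) = hex.choose := by rw [hrep]; simp only; rw [dif_pos hex]
        obtain ⟨e1, e2, e3⟩ := hex.choose_spec
        refine (hin a _ e1.symm).trans ((SimpleGraph.Adj.reachable
          (hKmk hex.choose.1 hex.choose.2 (fun h => e (e1.symm.trans ((congrArg f h).trans e2))) e3 (Or.inr ?_))).trans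
          (hin _ b e2))
        rw [hF, mem_union, mem_image]
        exact Or.inl ⟨(f a, f b), mem_univ _, hval⟩
    obtain ⟨T, hTK, hT⟩ := hKc.exists_isTree_le
    refine ⟨T, hT, fun u v h => (hKadj u v (hTK h)).1, fun S => ?_⟩
    rcases eq_or_ne S ∅ with rfl | hS0
    · simp
    rcases eq_or_ne S univ with rfl | hS1
    · simp
    have hkS := hcon S (nonempty_iff_ne_empty.2 hS0) hS1
    set D := 129 * c ^ 4 with hD
    set loc : Fin r → Finset (V × V) := fun i =>
      ((part f i ∩ S) ×ˢ (part f i \ S)).filter fun p => (H i).Adj p.1 p.2 with hloc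
    have hsub : (S ×ˢ Sᶜ).filter (fun p => T.Adj p.1 p.2) ⊆ univ.biUnion loc ∪ F := by
      rintro ⟨u, v⟩ h
      simp only [mem_filter, mem_product, mem_compl] at h
      rcases (hKadj u v (hTK h.2)).2 with ⟨e, h'⟩ | h'
      · refine mem_union_left _ (mem_biUnion.2 ⟨f u, mem_univ _, ?_⟩)
        simp [hloc, mem_part, h.1.1, h.1.2, h', e.symm]
      · exact mem_union_right _ h'
    have hFc : F.card ≤ 32 * c ^ 2 := by
      refine (card_union_le _ _).trans ?_
      have h1 := card_image_le (s := (univ : Finset (Fin r × Fin r))) (f := rep)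
      have h2 := card_image_le (s := (univ : Finset (Fin r × Fin r))) (f := fun q => (rep q).swap)
      simp only [card_univ, Fintype.card_prod, Fintype.card_fin] at h1 h2
      have hr : r ≤ 4 * c := by assumption
      have := Nat.mul_le_mul hr hr
      nlinarith
    have hlocc : ∀ i, k * (loc i).card ≤
        (64 * c ^ 3 + 8 * c) * D * ew w (part f i ∩ S) (part f i \ (part f i ∩ S)) := by
      intro i
      set A := part f i ∩ S with hA
      set e := ew w A (part f i \ A) with he
      have hA' : part f i \ A = part f i \ S := sdiff_inter_self_left _ _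
      have c1 : (loc i).card ≤ D * A.card := by
        calc (loc i).card ≤ (A.biUnion fun u => (univ.filter ((H i).Adj u)).image (Prod.mk u)).card :=
              card_le_card fun p hp => by
                simp only [hloc, mem_filter, mem_product] at hp
                exact mem_biUnion.2 ⟨p.1, hp.1.1, mem_image.2 ⟨p.2, by simp [hp.2], rfl⟩⟩
          _ ≤ ∑ u ∈ A, D := card_biUnion_le.trans
              (sum_le_sum fun u _ => card_image_le.trans ((hH i).2.2.1 u))
          _ = _ := by simp [mul_comm]
      have c2 : (loc i).card ≤ D * (part f i \ A).card := by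
        calc (loc i).card
            ≤ ((part f i \ A).biUnion fun v =>
                (univ.filter ((H i).Adj v)).image (fun u => (u, v))).card :=
              card_le_card fun p hp => by
                simp only [hloc, mem_filter, mem_product] at hp
                exact mem_biUnion.2 ⟨p.2, hA' ▸ hp.1.2,
                  mem_image.2 ⟨p.1, by simp [hp.2.symm], rfl⟩⟩
          _ ≤ ∑ v ∈ part f i \ A, D := card_biUnion_le.trans
              (sum_le_sum fun u _ => card_image_le.trans ((hH i).2.2.1 u))
          _ = _ := by simp [mul_comm]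
      have c3 : A.card ≤ Fintype.card V := card_le_univ _
      rcases (hH i).2.2.2 A inter_subset_left with h | h | h
      · calc k * (loc i).card ≤ k * (D * A.card) := Nat.mul_le_mul_left _ c1
          _ = D * (k * A.card) := by ring
          _ ≤ D * (8 * c * e) := Nat.mul_le_mul_left _ h
          _ ≤ _ := (Nat.le_add_left _ (D * (64 * c ^ 3 * e))).trans (le_of_eq (by ring))
      · calc k * (loc i).card ≤ k * (D * (part f i \ A).card) := Nat.mul_le_mul_left _ c2
          _ = D * (k * (part f i \ A).card) := by ring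
          _ ≤ D * (8 * c * e) := Nat.mul_le_mul_left _ h
          _ ≤ _ := (Nat.le_add_left _ (D * (64 * c ^ 3 * e))).trans (le_of_eq (by ring))
      · calc k * (loc i).card ≤ k * (D * Fintype.card V) :=
              Nat.mul_le_mul_left _ (c1.trans (Nat.mul_le_mul_left _ c3))
          _ = D * (k * Fintype.card V) := by ring
          _ ≤ D * (64 * c ^ 3 * e) := Nat.mul_le_mul_left _ h
          _ ≤ _ := (Nat.le_add_right _ (D * (8 * c * e))).trans (le_of_eq (by ring))
    have hsumle : ∑ i, ew w (part f i ∩ S) (part f i \ (part f i ∩ S)) ≤ ew w S Sᶜ := by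
      calc _ ≤ ∑ i, ew w (part f i ∩ S) Sᶜ := sum_le_sum fun i _ => by
            refine ew_mono w subset_rfl fun u hu => ?_
            simp only [mem_sdiff, mem_inter, mem_compl] at hu ⊢
            tauto
        _ = ew w S Sᶜ := by
          unfold ew
          rw [← sum_fiberwise S f]
          refine sum_congr rfl fun i _ => sum_congr ?_ fun _ _ => rfl
          ext u
          simp [part, and_comm]
    calc k * ((S ×ˢ Sᶜ).filter fun p => T.Adj p.1 p.2).card
        ≤ k * (∑ i, (loc i).card + F.card) := Nat.mul_le_mul_left _ ((card_le_card hsub).trans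
          ((card_union_le _ _).trans (add_le_add card_biUnion_le le_rfl)))
      _ = ∑ i, k * (loc i).card + k * F.card := by rw [mul_add, mul_sum]
      _ ≤ (64 * c ^ 3 + 8 * c) * D * ew w S Sᶜ + 32 * c ^ 2 * ew w S Sᶜ := by
        refine add_le_add ((sum_le_sum fun i _ => hlocc i).trans ?_) ?_
        · rw [← mul_sum]; exact Nat.mul_le_mul_left _ hsumle
        · calc k * F.card ≤ ew w S Sᶜ * (32 * c ^ 2) := Nat.mul_le_mul hkS hFc
            _ = _ := by ring
      _ = _ := by rw [hD]; ring
  · -- at most `4c` vertices: any spanning tree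
    obtain ⟨T, hTG, hT⟩ := hGc.exists_isTree_le
    refine ⟨T, hT, fun u v h => hGadj u v (hTG h), fun S => ?_⟩
    rcases eq_or_ne S ∅ with rfl | hS0
    · simp
    rcases eq_or_ne S univ with rfl | hS1
    · simp
    have hkS := hcon S (nonempty_iff_ne_empty.2 hS0) hS1
    have hnt : Nontrivial V := by
      obtain ⟨a, ha⟩ := nonempty_iff_ne_empty.2 hS0
      obtain ⟨b, hb⟩ : ∃ b, b ∉ S := by
        by_contra h
        push Not at h
        exact hS1 (eq_univ_of_forall h)
      exact nontrivial_of_ne a b fun e => hb (e ▸ ha)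
    have h4 : k < 4 * μ := by
      by_contra h
      exact hsmall ⟨hnt, not_lt.1 h⟩
    have hn4 : Fintype.card V ≤ 4 * c := by
      refine Nat.le_of_mul_le_mul_right (c := k) ?_ hk
      nlinarith
    have hcd : ((S ×ˢ Sᶜ).filter fun p => T.Adj p.1 p.2).card ≤ 16 * c ^ 2 := by
      refine (card_filter_le _ _).trans ?_
      rw [card_product]
      have h1 := Nat.mul_le_mul ((card_le_univ S).trans hn4) ((card_le_univ Sᶜ).trans hn4)
      nlinarith
    calc k * _ ≤ ew w S Sᶜ * (16 * c ^ 2) := Nat.mul_le_mul hkS hcd
      _ ≤ _ := by rw [mul_comm]; exact Nat.mul_le_mul_right _ (by omega)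

end Vale.P061
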