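import Vale.Agent.P061.Dense

/-! P061: thin spanning trees in multigraphs made of dense highly connected pieces. -/

namespace Vale.P061

open Finset
open scoped Classical

theorem thin_tree_pieces {V : Type} [Fintype V] [Nonempty V] {ι : Type} [Fintype ι]
    (w : V → V → ℕ) (k c : ℕ) (hk : 1 ≤ k) (P : ι → Finset V) (wp : ι → V → V → ℕ) (μ : ι → ℕ)
    (hdec : ∀ u v, w u v = ∑ i, wp i u v)
    (hsup : ∀ i u v, 0 < wp i u v → u ∈ P i ∧ v ∈ P i)
    (hsym : ∀ i u v, wp i u v = wp i v u) (h0 : ∀ i v, wp i v v = 0)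
    (hμ : ∀ i u v, wp i u v ≤ μ i) (hn : ∀ i, (P i).card * μ i ≤ c * k)
    (hcon : ∀ i, ∀ S ⊆ P i, S.Nonempty → S ≠ P i →
      k ≤ ∑ u ∈ S, ∑ v ∈ P i \ S, wp i u v)
    (hconn : ∀ S : Finset V, S.Nonempty → S ≠ univ → 0 < ∑ u ∈ S, ∑ v ∈ Sᶜ, w u v) :
    ∃ T : SimpleGraph V, T.IsTree ∧ (∀ u v, T.Adj u v → 0 < w u v) ∧ ∀ S : Finset V,
      k * ((S ×ˢ Sᶜ).filter fun p => T.Adj p.1 p.2).card ≤
        (8256 * c ^ 7 + 1032 * c ^ 5 + 32 * c ^ 2) * ∑ u ∈ S, ∑ v ∈ Sᶜ, w u v := by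
  set C := 8256 * c ^ 7 + 1032 * c ^ 5 + 32 * c ^ 2
  -- a thin tree in each nonempty piece
  have htree : ∀ i, ∃ H : SimpleGraph V, (∀ u v, H.Adj u v → 0 < wp i u v) ∧
      (∀ u ∈ P i, ∀ v ∈ P i, H.Reachable u v) ∧ ∀ S : Finset V,
        k * ((S ×ˢ Sᶜ).filter fun p => H.Adj p.1 p.2).card ≤
          C * ∑ u ∈ S, ∑ v ∈ Sᶜ, wp i u v := by
    intro i
    rcases (P i).eq_empty_or_nonempty with hP | hP
    · refine ⟨⊥, fun u v h => (SimpleGraph.bot_adj u v).1 h |>.elim, ?_, ?_⟩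
      · simp [hP]
      · simp
    have : Nonempty {x // x ∈ P i} := hP.coe_sort
    set w' : {x // x ∈ P i} → {x // x ∈ P i} → ℕ := fun a b => wp i a b
    have hmap : ∀ S S₂ : Finset {x // x ∈ P i}, (∀ a, a ∈ S₂ ↔ a ∉ S) →
        (∑ u ∈ S, ∑ v ∈ S₂, w' u v) =
        ∑ u ∈ S.map (Function.Embedding.subtype _),
          ∑ v ∈ P i \ S.map (Function.Embedding.subtype _), wp i u v := by
      intro S S₂ hS₂
      rw [sum_map]
      refine sum_congr rfl fun u _ => ?_
      have : P i \ S.map (Function.Embedding.subtype _) =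
          S₂.map (Function.Embedding.subtype _) := by
        ext x
        simp only [mem_sdiff, mem_map, hS₂, Function.Embedding.subtype_apply]
        constructor
        · rintro ⟨hx, hxS⟩
          exact ⟨⟨x, hx⟩, fun h => hxS ⟨_, h, rfl⟩, rfl⟩
        · rintro ⟨a, ha, rfl⟩
          exact ⟨a.2, fun ⟨b, hb, e⟩ => ha (Subtype.ext e ▸ hb)⟩
      rw [this, sum_map]
      rfl
    obtain ⟨T, hT, hpos, hthin⟩ := thin_tree w' (fun a b => hsym i a b) (fun a => h0 i a)
      k (μ i) c hk this (fun a b => hμ i a b) (by simpa using hn i) fun S hS hne => by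
        unfold ew
        refine le_of_le_of_eq ?_ (hmap S _ fun a => by simp).symm
        refine hcon i _ (fun x hx => ?_) (hS.map) fun h => hne ?_
        · obtain ⟨a, -, rfl⟩ := mem_map.1 hx
          exact a.2
        · refine eq_univ_iff_forall.2 fun a => ?_
          have : (a : V) ∈ S.map (Function.Embedding.subtype _) := by rw [h]; exact a.2
          obtain ⟨b, hb, e⟩ := mem_map.1 this
          exact Subtype.ext e ▸ hb
    refine ⟨T.map (Function.Embedding.subtype _), ?_, ?_, fun S => ?_⟩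
    · rintro u v h
      obtain ⟨a, b, hab, rfl, rfl⟩ := (SimpleGraph.map_adj _ _ _ _).1 h
      exact hpos a b hab
    · intro u hu v hv
      exact (hT.connected ⟨u, hu⟩ ⟨v, hv⟩).map
        (SimpleGraph.Embedding.map (Function.Embedding.subtype _) T).toHom
    · set S' : Finset {x // x ∈ P i} := univ.filter fun a => (a : V) ∈ S
      have h1 : ∀ F : Finset (V × V), (∀ p ∈ F, p ∈ S ×ˢ Sᶜ ∧
          (T.map (Function.Embedding.subtype _)).Adj p.1 p.2) → F ⊆
          ((S' ×ˢ S'ᶜ).filter fun p => T.Adj p.1 p.2).image fun p => ((p.1 : V), (p.2 : V)) := by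
        intro F hF p hp
        have hp := hF p hp
        simp only [mem_product, mem_compl] at hp
        obtain ⟨⟨hp1, hp2⟩, a, b, hab, ha, hb⟩ := hp.imp_right (SimpleGraph.map_adj _ _ _ _).1
        simp only [Function.Embedding.subtype_apply] at ha hb
        refine mem_image.2 ⟨(a, b), ?_, by simp [ha, hb]⟩
        simp [S', hab, ha, hb, hp1, hp2]
      have h2 : ∀ S₂ : Finset {x // x ∈ P i}, (∀ a, a ∈ S₂ ↔ a ∉ S') →
          (∑ u ∈ S', ∑ v ∈ S₂, w' u v) ≤ ∑ u ∈ S, ∑ v ∈ Sᶜ, wp i u v := by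
        intro S₂ hS₂
        rw [hmap S' S₂ hS₂]
        refine (sum_le_sum fun u _ => sum_le_sum_of_subset (t := Sᶜ) ?_).trans
          (sum_le_sum_of_subset ?_)
        · intro v hv
          simp only [mem_sdiff, mem_map, S', mem_filter, mem_univ, true_and,
            Function.Embedding.subtype_apply, not_exists, not_and] at hv
          exact mem_compl.2 fun h => hv.2 ⟨v, hv.1⟩ h rfl
        · intro u hu
          obtain ⟨a, ha, rfl⟩ := mem_map.1 hu
          exact (mem_filter.1 ha).2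
      refine le_trans (Nat.mul_le_mul_left k ((card_le_card (h1 _ fun p hp => (@mem_filter _ _ (_) _ _).1 hp)).trans card_image_le)) ?_
      refine le_trans ?_ ((hthin S').trans (Nat.mul_le_mul_left C
        (h2 _ fun a => by simp)))
      refine le_of_eq ?_
      refine congrArg (fun F => k * card F) ?_
      ext p; simp
  choose H hHpos hHreach hHthin using htree
  set G : SimpleGraph V := ⨆ i, H i with hG
  have hadj : ∀ u v, G.Adj u v ↔ ∃ i, (H i).Adj u v := fun u v => by simp [hG]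
  have hGconn : G.Connected := by
    refine ⟨fun a b => ?_⟩
    by_contra hab
    set S : Finset V := univ.filter fun x => G.Reachable a x
    have hne : S ≠ univ := fun h => hab (mem_filter.1 (h ▸ mem_univ b : b ∈ S)).2
    have hpos := hconn S ⟨a, mem_filter.2 ⟨mem_univ a, .refl a⟩⟩ hne
    obtain ⟨u, hu, v, hv, huv⟩ : ∃ u ∈ S, ∃ v ∈ Sᶜ, 0 < w u v := by
      by_contra h
      push Not at h
      have : ∑ u ∈ S, ∑ v ∈ Sᶜ, w u v = 0 :=
        sum_eq_zero fun u hu => sum_eq_zero fun v hv => Nat.le_zero.1 (h u hu v hv)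
      omega
    rw [hdec] at huv
    obtain ⟨i, -, hi⟩ := exists_ne_zero_of_sum_ne_zero huv.ne'
    obtain ⟨hu', hv'⟩ := hsup i u v (Nat.pos_of_ne_zero hi)
    have hr : G.Reachable u v := (hHreach i u hu' v hv').mono (le_iSup H i)
    exact mem_compl.1 hv (mem_filter.2 ⟨mem_univ v, (mem_filter.1 hu).2.trans hr⟩)
  obtain ⟨T, hTle, hT⟩ := hGconn.exists_isTree_le
  refine ⟨T, hT, fun u v h => ?_, fun S => ?_⟩
  · obtain ⟨i, hi⟩ := (hadj u v).1 (hTle h)
    rw [hdec]
    exact (hHpos i u v hi).trans_le (single_le_sum (fun j _ => Nat.zero_le (wp j u v)) (mem_univ i))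
  · have h1 : ((S ×ˢ Sᶜ).filter fun p => T.Adj p.1 p.2) ⊆
        univ.biUnion fun i => (S ×ˢ Sᶜ).filter fun p => (H i).Adj p.1 p.2 := by
      intro p hp
      obtain ⟨hp, hadj'⟩ := mem_filter.1 hp
      obtain ⟨i, hi⟩ := (hadj _ _).1 (hTle hadj')
      exact mem_biUnion.2 ⟨i, mem_univ i, mem_filter.2 ⟨hp, hi⟩⟩
    calc k * ((S ×ˢ Sᶜ).filter fun p => T.Adj p.1 p.2).card
        ≤ k * ∑ i, ((S ×ˢ Sᶜ).filter fun p => (H i).Adj p.1 p.2).card :=
          Nat.mul_le_mul_left _ ((card_le_card h1).trans card_biUnion_le)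
      _ ≤ ∑ i, C * ∑ u ∈ S, ∑ v ∈ Sᶜ, wp i u v := by
          rw [mul_sum]; exact sum_le_sum fun i _ => hHthin i S
      _ = C * ∑ u ∈ S, ∑ v ∈ Sᶜ, w u v := by
          rw [← mul_sum, sum_comm]
          refine congrArg _ (sum_congr rfl fun u _ => ?_)
          rw [sum_comm]
          exact sum_congr rfl fun v _ => (hdec u v).symm

end Vale.P061
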